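import Vale.Agent.P011.H261.Rl.Asm
import Vale.Agent.P011.E6H.XBad

/-!
The choice of the places.
-/

open NormedSpace Filter Topology NumberField

namespace Vale.Agent.P011.H261.Rl

open Vale.Agent.P011.MPQ Vale.Agent.P011.D4 Vale.Agent.P011.D4.Oct Vale.Agent.P011.E6
open Vale.Agent.P011.E6H
open scoped ComplexConjugate

variable {k E : Type} [Field k] [NumberField k] [Field E] [NumberField E] [Algebra k E]

/-- The embeddings lie over different places. -/
def Diff {S : Type} (φ : S → E →+* ℂ) : Prop :=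
  ∀ v v', (∀ x : k, ‖φ v (algebraMap k E x)‖ = ‖φ v' (algebraMap k E x)‖) → v = v'

/-- The embedding lies over one of the places. -/
def Over {S : Type} (φ : S → E →+* ℂ) (w : E →+* ℂ) : Prop :=
  ∃ v, ∀ x : k, ‖w (algebraMap k E x)‖ = ‖φ v (algebraMap k E x)‖

variable (ρ σ : E ≃ₐ[k] E) (lam : Eˣ) (g : Fin 3 → Eˣ) (a b c : kˣ)

/-- The Lie algebra of the closure of a subgroup of finite index. -/
def Front : Prop := ∀ {S : Type} [Fintype S] [DecidableEq S] (φ : S → E →+* ℂ),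
  Diff (k := k) φ → ∀ N : Subgroup (G3 ρ σ lam g a b c), N.index ≠ 0 → ∀ v,
    ∀ X ∈ Ll σ g (φ v) a b c, (Pi.single v X : ∀ v : S, RE (φ v) a b c) ∈ lieOf (Lcl φ N)

/-- Nearness at one embedding over each place is nearness at all of them. -/
def EmbNear : Prop := ∀ {S : Type} [Fintype S] (φ : S → E →+* ℂ), ∀ ε : ℝ, 0 < ε →
  ∃ δ : ℝ, 0 < δ ∧ ∀ h : G3 ρ σ lam g a b c, (∀ v, ‖lc (φ v) h.1 - 1‖ < δ) →
    ∀ w : E →+* ℂ, Over (k := k) φ w → ∀ x, nm w (h.1 x - x) ≤ ε * nm w x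

/-- The connectedness at an embedding. -/
def Conn (φ : E →+* ℂ) : Prop :=
  Cn (Ll σ g φ a b c) {x | ∃ f ∈ G3 ρ σ lam g a b c, x = lc φ f}

variable {ρ σ lam g a b c}

/-- The assembly over all the places. -/
theorem noIndex_all (hO : OpenAt (fun _ => True) (G3 ρ σ lam g a b c)) (hI : Front ρ σ lam g a b c)
    (hE : EmbNear ρ σ lam g a b c) (hII : ∀ φ, Conn ρ σ lam g a b c φ) :
    NoIndex (G3 ρ σ lam g a b c) := by
  classical
  have hex : ∀ v : InfinitePlace k, ∃ φ : E →+* ℂ, ∀ x, ‖φ (algebraMap k E x)‖ = v x := by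
    intro v
    obtain ⟨w, hw⟩ := InfinitePlace.comap_surjective (K := E) v
    refine ⟨w.embedding, fun x => ?_⟩
    rw [InfinitePlace.norm_embedding_eq, ← hw]
    rfl
  choose φ hφ using hex
  refine noIndex_of_open hO φ (fun N hN v X hX => hI φ ?_ N hN v X hX) (fun v => hII _) ?_
  · intro v v' h
    refine InfinitePlace.ext _ _ fun x => ?_
    rw [← hφ, ← hφ]
    exact h x
  · intro ε hε
    obtain ⟨δ, hδ, h1⟩ := hE φ ε hε
    refine ⟨δ, hδ, fun h hh w _ x => h1 h hh w ⟨InfinitePlace.mk (w.comp (algebraMap k E)),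
      fun y => ?_⟩ x⟩
    rw [hφ, InfinitePlace.apply]
    rfl

/-- The assembly over the places of a set. -/
theorem noIndex_on {S0 : (E →+* ℂ) → Prop} (hO : OpenAt S0 (G3 ρ σ lam g a b c))
    (hI : Front ρ σ lam g a b c) (hE : EmbNear ρ σ lam g a b c)
    (hII : ∀ φ, S0 φ → Conn ρ σ lam g a b c φ) : NoIndex (G3 ρ σ lam g a b c) := by
  classical
  let S := {v : InfinitePlace k // ∃ w : E →+* ℂ, S0 w ∧
    InfinitePlace.mk (w.comp (algebraMap k E)) = v}
  have hex : ∀ v : S, ∃ w : E →+* ℂ, S0 w ∧ InfinitePlace.mk (w.comp (algebraMap k E)) = v.1 :=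
    fun v => v.2
  choose φ h0 hφ using hex
  have hφ' : ∀ v : S, ∀ x, ‖φ v (algebraMap k E x)‖ = v.1 x := by
    intro v x
    rw [← hφ v, InfinitePlace.apply]
    rfl
  refine noIndex_of_open hO φ (fun N hN v X hX => hI φ ?_ N hN v X hX) (fun v => hII _ (h0 v)) ?_
  · intro v v' h
    refine Subtype.ext (InfinitePlace.ext _ _ fun x => ?_)
    rw [← hφ', ← hφ']
    exact h x
  · intro ε hε
    obtain ⟨δ, hδ, h1⟩ := hE φ ε hε
    refine ⟨δ, hδ, fun h hh w hw x => h1 h hh w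
      ⟨⟨InfinitePlace.mk (w.comp (algebraMap k E)), w, hw, rfl⟩, fun y => ?_⟩ x⟩
    rw [hφ', InfinitePlace.apply]
    rfl

end Vale.Agent.P011.H261.Rl
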