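import Vale.Agent.P011.H261.Rl.Lie
import Mathlib.Topology.Algebra.Monoid

/-!
Closed monoids in a product of Banach algebras.
-/

open NormedSpace Filter Topology

namespace Vale.Agent.P011.H261.Rl

variable {S : Type*} [Fintype S] [DecidableEq S] {A : S → Type*} [∀ i, NormedRing (A i)]
  [∀ i, NormedAlgebra ℝ (A i)] [∀ i, CompleteSpace (A i)]

theorem exp_single (v : S) (X : A v) (t : ℝ) :
    exp (t • (Pi.single v X : ∀ i, A i)) = Function.update (1 : ∀ i, A i) v (exp (t • X)) := by
  let _ : ∀ i, NormedAlgebra ℚ (A i) := fun i => NormedAlgebra.restrictScalars ℚ ℝ (A i)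
  funext u
  rw [Pi.coe_exp]
  rcases eq_or_ne u v with rfl | hu
  · simp
  · rw [Function.update_of_ne hu, Pi.smul_apply, Pi.single_eq_of_ne hu, smul_zero, exp_zero]
    rfl

/-- An element of a product belongs to a closed monoid if the factors do, and a criterion for the
factors. -/
theorem mem_of_factors {L : Set (∀ i, A i)} (hc : IsClosed L) (h1 : 1 ∈ L)
    (hm : ∀ x ∈ L, ∀ y ∈ L, x * y ∈ L) {l G : ∀ i, Set (A i)}
    (hl : ∀ i, ∀ X ∈ l i, (Pi.single i X : ∀ i, A i) ∈ lieOf L)
    (hG : ∀ i, ∀ M : Set (A i), IsClosed M → (1 : A i) ∈ M → (∀ x ∈ M, ∀ y ∈ M, x * y ∈ M) →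
      (∀ X ∈ l i, X ∈ lieOf M) → ∀ f ∈ G i, f ∈ M) {x : ∀ i, A i} (hx : ∀ i, x i ∈ G i) :
    x ∈ L := by
  have h3 : ∀ v, Function.update (1 : ∀ i, A i) v (x v) ∈ L := by
    intro v
    refine hG v {y | Function.update (1 : ∀ i, A i) v y ∈ L} ?_ ?_ ?_ ?_ _ (hx v)
    · have hc' : Continuous fun y : A v => (Function.update 1 v y : ∀ i, A i) :=
        continuous_const.update v continuous_id
      exact hc.preimage hc'
    · change Function.update (1 : ∀ i, A i) v 1 ∈ L
      rw [show (1 : A v) = (1 : ∀ i, A i) v from rfl, Function.update_eq_self]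
      exact h1
    · intro x hx y hy
      have := hm _ hx _ hy
      rw [← Function.update_mul, one_mul] at this
      exact this
    · intro X hX t
      have h2 := hl v X hX t
      rw [exp_single] at h2
      exact h2
  have h2 : ∀ s : Finset S, (fun v => if v ∈ s then x v else (1 : A v)) ∈ L := by
    intro s
    induction s using Finset.induction_on with
    | empty =>
      simp only [Finset.notMem_empty, if_false]
      exact h1
    | insert u s hu ih =>
      have := hm _ ih _ (h3 u)
      have e : (fun v => if v ∈ insert u s then x v else (1 : A v)) =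
          (fun v => if v ∈ s then x v else (1 : A v)) *
            Function.update (1 : ∀ i, A i) u (x u) := by
        funext v
        rw [Pi.mul_apply]
        rcases eq_or_ne v u with rfl | hv
        · simp [hu]
        · rw [Function.update_of_ne hv]
          simp [hv]
      rw [e]
      exact this
  have := h2 Finset.univ
  simpa using this

end Vale.Agent.P011.H261.Rl
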