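import Vale.Agent.P011.H261.Rl.Spec
import Vale.Agent.P011.H261.Rl.Prod

/-!
The assembly: openness, the Lie algebra of the closure and the connectedness at each place give the
absence of subgroups of finite index.
-/

open NormedSpace Filter Topology NumberField

namespace Vale.Agent.P011.H261.Rl

open Vale.Agent.P011.MPQ Vale.Agent.P011.D4 Vale.Agent.P011.D4.Oct Vale.Agent.P011.E6
open Vale.Agent.P011.E6H
open scoped ComplexConjugate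

variable {k E : Type} [Field k] [Field E] [Algebra k E]
variable {ρ σ : E ≃ₐ[k] E} {lam : Eˣ} {g : Fin 3 → Eˣ} {a b c : kˣ}

theorem G3.add (f : G3 ρ σ lam g a b c) (x y : AlbL E a b c) : f.1 (x + y) = f.1 x + f.1 y :=
  f.2.1.1.1 x y

theorem G3.smul (f : G3 ρ σ lam g a b c) (t : E) (x : AlbL E a b c) :
    f.1 (t • x) = t • f.1 x := f.2.1.1.2.1 t x

theorem G3.cub (f : G3 ρ σ lam g a b c) (x : AlbL E a b c) : Alb.cub (f.1 x) = Alb.cub x :=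
  f.2.1.1.2.2 x

theorem G3.her (f : G3 ρ σ lam g a b c) (x y : AlbL E a b c) :
    her σ g (f.1 x) (f.1 y) = her σ g x y := f.2.1.2 x y

theorem G3.ph (f : G3 ρ σ lam g a b c) (x : AlbL E a b c) :
    f.1 (ph ρ lam x) = ph ρ lam (f.1 x) := f.2.2.2 x

theorem lc_mul (φ : E →+* ℂ) (f h : G3 ρ σ lam g a b c) :
    lc φ (f * h).1 = lc φ f.1 * lc φ h.1 :=
  loc_mul φ (G3.add f) (G3.smul f) (G3.add h) (G3.smul h)

theorem lc_one (φ : E →+* ℂ) : lc φ (1 : G3 ρ σ lam g a b c).1 = 1 := loc_one φ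

section closure

variable {S : Type} (φ : S → E →+* ℂ) (N : Subgroup (G3 ρ σ lam g a b c))

theorem one_mem_Lcl : (1 : ∀ v : S, RE (φ v) a b c) ∈ Lcl φ N :=
  subset_closure ⟨1, N.one_mem, fun v => (lc_one (φ v)).symm⟩

theorem mul_mem_Lcl : ∀ x ∈ Lcl φ N, ∀ y ∈ Lcl φ N, x * y ∈ Lcl φ N := by
  intro x hx y hy
  refine map_mem_closure₂ continuous_mul hx hy ?_
  rintro x ⟨n, hn, h⟩ y ⟨m, hm, h'⟩
  exact ⟨n * m, N.mul_mem hn hm, fun v => by rw [Pi.mul_apply, h, h', lc_mul]⟩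

theorem lc_mem_Lcl {n : G3 ρ σ lam g a b c} (hn : n ∈ N) : (fun v => lc (φ v) n.1) ∈ Lcl φ N :=
  subset_closure ⟨n, hn, fun _ => rfl⟩

end closure

/-- The assembly. -/
theorem noIndex_of_open {S0 : (E →+* ℂ) → Prop} (hO : OpenAt S0 (G3 ρ σ lam g a b c))
    {S : Type} [Fintype S] [DecidableEq S] (φ : S → E →+* ℂ)
    (hI : ∀ N : Subgroup (G3 ρ σ lam g a b c), N.index ≠ 0 → ∀ v, ∀ X ∈ Ll σ g (φ v) a b c,
      (Pi.single v X : ∀ v : S, RE (φ v) a b c) ∈ lieOf (Lcl φ N))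
    (hII : ∀ v, Cn (Ll σ g (φ v) a b c) {x | ∃ f ∈ G3 ρ σ lam g a b c, x = lc (φ v) f})
    (hE : ∀ ε : ℝ, 0 < ε → ∃ δ : ℝ, 0 < δ ∧ ∀ h : G3 ρ σ lam g a b c,
      (∀ v, ‖lc (φ v) h.1 - 1‖ < δ) → ∀ w, S0 w → ∀ x, nm w (h.1 x - x) ≤ ε * nm w x) :
    NoIndex (G3 ρ σ lam g a b c) := by
  intro N hN
  obtain ⟨ε, hε, hnear⟩ := hO N hN
  rw [eq_top_iff]
  intro f _
  obtain ⟨δ, hδ, hE⟩ := hE ε hε
  have h3 : (fun v => lc (φ v) f.1 : ∀ v : S, RE (φ v) a b c) ∈ Lcl φ N :=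
    mem_of_factors (A := fun v => RE (φ v) a b c) isClosed_closure (one_mem_Lcl φ N)
      (mul_mem_Lcl φ N) (fun v => hI N hN v) (fun v => hII v) fun v => ⟨f.1, f.2, rfl⟩
  obtain ⟨B, hB, hfB⟩ : ∃ B : ℝ, 0 < B ∧ ∀ v, ‖lc (φ v) (f⁻¹).1‖ ≤ B := by
    refine ⟨1 + ∑ v, ‖lc (φ v) (f⁻¹).1‖, by positivity, fun v => ?_⟩
    have : ‖lc (φ v) (f⁻¹).1‖ ≤ ∑ v, ‖lc (φ v) (f⁻¹).1‖ :=
      Finset.single_le_sum (f := fun v => ‖lc (φ v) (f⁻¹).1‖)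
        (fun v _ => norm_nonneg _) (Finset.mem_univ v)
    linarith
  obtain ⟨y, ⟨n, hn, hy⟩, hd⟩ := Metric.mem_closure_iff.1 h3 (δ / B) (div_pos hδ hB)
  have h4 : ∀ v, ‖lc (φ v) (n * f⁻¹).1 - 1‖ < δ := by
    intro v
    have e1 : lc (φ v) (n * f⁻¹).1 - 1 =
        (lc (φ v) n.1 - lc (φ v) f.1) * lc (φ v) (f⁻¹).1 := by
      rw [lc_mul, sub_mul, ← lc_mul (φ v) f, mul_inv_cancel, lc_one]
    have e2 : ‖lc (φ v) n.1 - lc (φ v) f.1‖ < δ / B := by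
      rw [← hy v, ← dist_eq_norm, dist_comm]
      exact lt_of_le_of_lt (dist_le_pi_dist (fun v => lc (φ v) f.1) y v) hd
    rw [e1]
    calc ‖(lc (φ v) n.1 - lc (φ v) f.1) * lc (φ v) (f⁻¹).1‖
        ≤ ‖lc (φ v) n.1 - lc (φ v) f.1‖ * ‖lc (φ v) (f⁻¹).1‖ := norm_mul_le _ _
      _ ≤ ‖lc (φ v) n.1 - lc (φ v) f.1‖ * B :=
          mul_le_mul_of_nonneg_left (hfB v) (norm_nonneg _)
      _ < δ / B * B := mul_lt_mul_of_pos_right e2 hB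
      _ = δ := div_mul_cancel₀ _ hB.ne'
  have h5 : n * f⁻¹ ∈ N := hnear _ (hE _ h4)
  have h6 := N.mul_mem (N.inv_mem h5) hn
  have e3 : (n * f⁻¹)⁻¹ * n = f := by group
  rwa [e3] at h6

end Vale.Agent.P011.H261.Rl
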