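import Vale.Agent.P011.H261.Rl.Elem
import Vale.Agent.P011.E6H.XDefs

/-!
The base change of the maps to the complex numbers, the groups and Lie algebras at an embedding.
-/

open NormedSpace Filter Topology NumberField

namespace Vale.Agent.P011.H261.Rl

open Vale.Agent.P011.MPQ Vale.Agent.P011.D4 Vale.Agent.P011.D4.Oct Vale.Agent.P011.E6
open Vale.Agent.P011.E6H
open scoped ComplexConjugate

section ev

variable {F : Type} [Field F]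

/-- A unit, in the complex numbers. -/
abbrev uw (φ : F →+* ℂ) (a : Fˣ) : ℂˣ := Units.map (φ : F →* ℂ) a

/-- A quaternion, over the complex numbers. -/
def evq (φ : F →+* ℂ) {a b : Fˣ} (x : Qt a b) : Qt (uw φ a) (uw φ b) :=
  ⟨φ x.re, φ x.imI, φ x.imJ, φ x.imK⟩

/-- An octonion, over the complex numbers. -/
def evo (φ : F →+* ℂ) {a b c : Fˣ} (x : Oct a b c) : Oct (uw φ a) (uw φ b) (uw φ c) :=
  ⟨evq φ x.fst, evq φ x.snd⟩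

/-- A hermitian matrix, over the complex numbers. -/
def ev (φ : F →+* ℂ) {a b c : Fˣ} (x : Alb a b c) : Alb (uw φ a) (uw φ b) (uw φ c) :=
  ⟨φ x.d1, φ x.d2, φ x.d3, evo φ x.x1, evo φ x.x2, evo φ x.x3⟩

@[simp] theorem re_evq (φ : F →+* ℂ) {a b : Fˣ} (x : Qt a b) : (evq φ x).re = φ x.re := rfl
@[simp] theorem imI_evq (φ : F →+* ℂ) {a b : Fˣ} (x : Qt a b) : (evq φ x).imI = φ x.imI := rfl
@[simp] theorem imJ_evq (φ : F →+* ℂ) {a b : Fˣ} (x : Qt a b) : (evq φ x).imJ = φ x.imJ := rfl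
@[simp] theorem imK_evq (φ : F →+* ℂ) {a b : Fˣ} (x : Qt a b) : (evq φ x).imK = φ x.imK := rfl

theorem evq_add (φ : F →+* ℂ) {a b : Fˣ} (x y : Qt a b) : evq φ (x + y) = evq φ x + evq φ y := by
  ext <;> simp

theorem evq_smul (φ : F →+* ℂ) {a b : Fˣ} (t : F) (x : Qt a b) :
    evq φ (t • x) = φ t • evq φ x := by
  ext <;> simp

@[simp] theorem evq_zero (φ : F →+* ℂ) {a b : Fˣ} : evq φ (0 : Qt a b) = 0 := by
  ext <;> simp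

theorem evo_add (φ : F →+* ℂ) {a b c : Fˣ} (x y : Oct a b c) :
    evo φ (x + y) = evo φ x + evo φ y := by
  ext1
  · exact evq_add _ _ _
  · exact evq_add _ _ _

theorem evo_smul (φ : F →+* ℂ) {a b c : Fˣ} (t : F) (x : Oct a b c) :
    evo φ (t • x) = φ t • evo φ x := by
  ext1
  · exact evq_smul _ _ _
  · exact evq_smul _ _ _

theorem ev_add (φ : F →+* ℂ) {a b c : Fˣ} (x y : Alb a b c) : ev φ (x + y) = ev φ x + ev φ y := by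
  ext1
  · exact map_add _ _ _
  · exact map_add _ _ _
  · exact map_add _ _ _
  · exact evo_add _ _ _
  · exact evo_add _ _ _
  · exact evo_add _ _ _

theorem ev_smul (φ : F →+* ℂ) {a b c : Fˣ} (t : F) (x : Alb a b c) :
    ev φ (t • x) = φ t • ev φ x := by
  ext1
  · exact map_mul _ _ _
  · exact map_mul _ _ _
  · exact map_mul _ _ _
  · exact evo_smul _ _ _
  · exact evo_smul _ _ _
  · exact evo_smul _ _ _

/-- The linear extension of a map on quaternions. -/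
def exq {W : Type} [AddCommGroup W] [Module ℂ W] {a b : Fˣ} {a' b' : ℂˣ} (s : Qt a b → W)
    (y : Qt a' b') : W :=
  y.re • s ⟨1, 0, 0, 0⟩ + y.imI • s ⟨0, 1, 0, 0⟩ + y.imJ • s ⟨0, 0, 1, 0⟩ + y.imK • s ⟨0, 0, 0, 1⟩

/-- The linear extension of a map on hermitian matrices. -/
def ex {W : Type} [AddCommGroup W] [Module ℂ W] {a b c : Fˣ} {a' b' c' : ℂˣ} (s : Alb a b c → W) :
    Alb a' b' c' →ₗ[ℂ] W where
  toFun y := y.d1 • s ⟨1, 0, 0, 0, 0, 0⟩ + y.d2 • s ⟨0, 1, 0, 0, 0, 0⟩ +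
    y.d3 • s ⟨0, 0, 1, 0, 0, 0⟩ +
    (exq (fun q => s ⟨0, 0, 0, ⟨q, 0⟩, 0, 0⟩) y.x1.fst +
      exq (fun q => s ⟨0, 0, 0, ⟨0, q⟩, 0, 0⟩) y.x1.snd) +
    (exq (fun q => s ⟨0, 0, 0, 0, ⟨q, 0⟩, 0⟩) y.x2.fst +
      exq (fun q => s ⟨0, 0, 0, 0, ⟨0, q⟩, 0⟩) y.x2.snd) +
    (exq (fun q => s ⟨0, 0, 0, 0, 0, ⟨q, 0⟩⟩) y.x3.fst +
      exq (fun q => s ⟨0, 0, 0, 0, 0, ⟨0, q⟩⟩) y.x3.snd)
  map_add' x y := by
    simp only [exq, Alb.d1_add, Alb.d2_add, Alb.d3_add, Alb.x1_add, Alb.x2_add, Alb.x3_add,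
      Oct.fst_add, Oct.snd_add, QuaternionAlgebra.re_add, QuaternionAlgebra.imI_add,
      QuaternionAlgebra.imJ_add, QuaternionAlgebra.imK_add, add_smul]
    abel
  map_smul' t x := by
    simp only [exq, Alb.d1_smul, Alb.d2_smul, Alb.d3_smul, Alb.x1_smul, Alb.x2_smul, Alb.x3_smul,
      Oct.fst_smul, Oct.snd_smul, QuaternionAlgebra.re_smul, QuaternionAlgebra.imI_smul,
      QuaternionAlgebra.imJ_smul, QuaternionAlgebra.imK_smul, smul_eq_mul, mul_smul, smul_add,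
      RingHom.id_apply]

theorem exq_evq {W : Type} [AddCommGroup W] [Module ℂ W] (φ : F →+* ℂ) {a b : Fˣ} (s : Qt a b → W)
    (ha : ∀ x y, s (x + y) = s x + s y) (hs : ∀ (t : F) x, s (t • x) = φ t • s x) (x : Qt a b) :
    exq s (evq φ x) = s x := by
  have h : x = x.re • (⟨1, 0, 0, 0⟩ : Qt a b) + x.imI • (⟨0, 1, 0, 0⟩ : Qt a b) +
      x.imJ • (⟨0, 0, 1, 0⟩ : Qt a b) + x.imK • (⟨0, 0, 0, 1⟩ : Qt a b) := by
    ext <;> simp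
  conv_rhs => rw [h]
  rw [ha, ha, ha, hs, hs, hs, hs]
  rfl

theorem decomp {F : Type} [Field F] {a b c : Fˣ} (x : Alb a b c) :
    x = x.d1 • (⟨1, 0, 0, 0, 0, 0⟩ : Alb a b c) + x.d2 • (⟨0, 1, 0, 0, 0, 0⟩ : Alb a b c) +
      x.d3 • (⟨0, 0, 1, 0, 0, 0⟩ : Alb a b c) +
      ((⟨0, 0, 0, ⟨x.x1.fst, 0⟩, 0, 0⟩ : Alb a b c) + ⟨0, 0, 0, ⟨0, x.x1.snd⟩, 0, 0⟩) +
      ((⟨0, 0, 0, 0, ⟨x.x2.fst, 0⟩, 0⟩ : Alb a b c) + ⟨0, 0, 0, 0, ⟨0, x.x2.snd⟩, 0⟩) +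
      ((⟨0, 0, 0, 0, 0, ⟨x.x3.fst, 0⟩⟩ : Alb a b c) + ⟨0, 0, 0, 0, 0, ⟨0, x.x3.snd⟩⟩) := by
  ext1
  · simp
  · simp
  · simp
  · ext1 <;> simp
  · ext1 <;> simp
  · ext1 <;> simp

theorem ex_ev {W : Type} [AddCommGroup W] [Module ℂ W] (φ : F →+* ℂ) {a b c : Fˣ}
    (s : Alb a b c → W) (ha : ∀ x y, s (x + y) = s x + s y)
    (hs : ∀ (t : F) x, s (t • x) = φ t • s x) (x : Alb a b c) :
    ex (a' := uw φ a) (b' := uw φ b) (c' := uw φ c) s (ev φ x) = s x := by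
  have hz : ∀ (i : Qt a b → Alb a b c), (∀ x y, i (x + y) = i x + i y) →
      (∀ (t : F) x, i (t • x) = t • i x) → ∀ q, exq (fun q => s (i q)) (evq φ q) = s (i q) := by
    intro i h1 h2 q
    exact exq_evq φ (fun q => s (i q)) (fun x y => by rw [h1, ha]) (fun t x => by rw [h2, hs]) q
  conv_rhs => rw [decomp x]
  rw [ha, ha, ha, ha, ha, ha, ha, ha, hs, hs, hs]
  change φ x.d1 • s ⟨1, 0, 0, 0, 0, 0⟩ + φ x.d2 • s ⟨0, 1, 0, 0, 0, 0⟩ +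
    φ x.d3 • s ⟨0, 0, 1, 0, 0, 0⟩ +
    (exq (fun q => s ⟨0, 0, 0, ⟨q, 0⟩, 0, 0⟩) (evq φ x.x1.fst) +
      exq (fun q => s ⟨0, 0, 0, ⟨0, q⟩, 0, 0⟩) (evq φ x.x1.snd)) +
    (exq (fun q => s ⟨0, 0, 0, 0, ⟨q, 0⟩, 0⟩) (evq φ x.x2.fst) +
      exq (fun q => s ⟨0, 0, 0, 0, ⟨0, q⟩, 0⟩) (evq φ x.x2.snd)) +
    (exq (fun q => s ⟨0, 0, 0, 0, 0, ⟨q, 0⟩⟩) (evq φ x.x3.fst) +
      exq (fun q => s ⟨0, 0, 0, 0, 0, ⟨0, q⟩⟩) (evq φ x.x3.snd)) = _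
  rw [hz (fun q => ⟨0, 0, 0, ⟨q, 0⟩, 0, 0⟩), hz (fun q => ⟨0, 0, 0, ⟨0, q⟩, 0, 0⟩),
    hz (fun q => ⟨0, 0, 0, 0, ⟨q, 0⟩, 0⟩), hz (fun q => ⟨0, 0, 0, 0, ⟨0, q⟩, 0⟩),
    hz (fun q => ⟨0, 0, 0, 0, 0, ⟨q, 0⟩⟩), hz (fun q => ⟨0, 0, 0, 0, 0, ⟨0, q⟩⟩)]
  all_goals
    intros
    ext1 <;> first | (simp; done) | (ext1 <;> simp)

theorem exq_lin {W : Type} [AddCommGroup W] [Module ℂ W] (φ : F →+* ℂ) {a b : Fˣ}
    (s : Qt (uw φ a) (uw φ b) → W) (ha : ∀ x y, s (x + y) = s x + s y)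
    (hs : ∀ (t : ℂ) x, s (t • x) = t • s x) (y : Qt (uw φ a) (uw φ b)) :
    exq (fun q : Qt a b => s (evq φ q)) y = s y := by
  have h : y = y.re • evq φ (⟨1, 0, 0, 0⟩ : Qt a b) + y.imI • evq φ (⟨0, 1, 0, 0⟩ : Qt a b) +
      y.imJ • evq φ (⟨0, 0, 1, 0⟩ : Qt a b) + y.imK • evq φ (⟨0, 0, 0, 1⟩ : Qt a b) := by
    ext <;> simp
  conv_rhs => rw [h]
  rw [ha, ha, ha, hs, hs, hs, hs]
  rfl

/-- Two linear maps that agree on the image of the ground field are equal. -/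
theorem ext_ev {W : Type} [AddCommGroup W] [Module ℂ W] (φ : F →+* ℂ) {a b c : Fˣ}
    {f g : Alb (uw φ a) (uw φ b) (uw φ c) →ₗ[ℂ] W} (h : ∀ x : Alb a b c, f (ev φ x) = g (ev φ x)) :
    f = g := by
  have key : ∀ f : Alb (uw φ a) (uw φ b) (uw φ c) →ₗ[ℂ] W, ∀ y,
      f y = ex (fun x : Alb a b c => f (ev φ x)) y := by
    intro f y
    have hz : ∀ (i : Qt (uw φ a) (uw φ b) → Alb (uw φ a) (uw φ b) (uw φ c))
        (j : Qt a b → Alb a b c), (∀ q, ev φ (j q) = i (evq φ q)) →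
        (∀ x y, i (x + y) = i x + i y) → (∀ (t : ℂ) x, i (t • x) = t • i x) →
        ∀ q, exq (fun q => f (ev φ (j q))) q = f (i q) := by
      intro i j h0 h1 h2 q
      have := exq_lin φ (fun q => f (i q)) (fun x y => by rw [h1, map_add])
        (fun t x => by rw [h2, map_smul]) q
      rw [← this]
      congr 1
      funext q
      rw [h0]
    have e1 : ev φ (⟨1, 0, 0, 0, 0, 0⟩ : Alb a b c) = ⟨1, 0, 0, 0, 0, 0⟩ := by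
      simp [ev, evo]; rfl
    have e2 : ev φ (⟨0, 1, 0, 0, 0, 0⟩ : Alb a b c) = ⟨0, 1, 0, 0, 0, 0⟩ := by
      simp [ev, evo]; rfl
    have e3 : ev φ (⟨0, 0, 1, 0, 0, 0⟩ : Alb a b c) = ⟨0, 0, 1, 0, 0, 0⟩ := by
      simp [ev, evo]; rfl
    conv_lhs => rw [decomp y]
    change _ = y.d1 • f (ev φ ⟨1, 0, 0, 0, 0, 0⟩) + y.d2 • f (ev φ ⟨0, 1, 0, 0, 0, 0⟩) +
      y.d3 • f (ev φ ⟨0, 0, 1, 0, 0, 0⟩) +
      (exq (fun q => f (ev φ ⟨0, 0, 0, ⟨q, 0⟩, 0, 0⟩)) y.x1.fst +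
        exq (fun q => f (ev φ ⟨0, 0, 0, ⟨0, q⟩, 0, 0⟩)) y.x1.snd) +
      (exq (fun q => f (ev φ ⟨0, 0, 0, 0, ⟨q, 0⟩, 0⟩)) y.x2.fst +
        exq (fun q => f (ev φ ⟨0, 0, 0, 0, ⟨0, q⟩, 0⟩)) y.x2.snd) +
      (exq (fun q => f (ev φ ⟨0, 0, 0, 0, 0, ⟨q, 0⟩⟩)) y.x3.fst +
        exq (fun q => f (ev φ ⟨0, 0, 0, 0, 0, ⟨0, q⟩⟩)) y.x3.snd)
    rw [hz (fun q => ⟨0, 0, 0, ⟨q, 0⟩, 0, 0⟩) (fun q => ⟨0, 0, 0, ⟨q, 0⟩, 0, 0⟩),
      hz (fun q => ⟨0, 0, 0, ⟨0, q⟩, 0, 0⟩) (fun q => ⟨0, 0, 0, ⟨0, q⟩, 0, 0⟩),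
      hz (fun q => ⟨0, 0, 0, 0, ⟨q, 0⟩, 0⟩) (fun q => ⟨0, 0, 0, 0, ⟨q, 0⟩, 0⟩),
      hz (fun q => ⟨0, 0, 0, 0, ⟨0, q⟩, 0⟩) (fun q => ⟨0, 0, 0, 0, ⟨0, q⟩, 0⟩),
      hz (fun q => ⟨0, 0, 0, 0, 0, ⟨q, 0⟩⟩) (fun q => ⟨0, 0, 0, 0, 0, ⟨q, 0⟩⟩),
      hz (fun q => ⟨0, 0, 0, 0, 0, ⟨0, q⟩⟩) (fun q => ⟨0, 0, 0, 0, 0, ⟨0, q⟩⟩), e1, e2, e3]
    · simp only [map_add, map_smul]
    all_goals
      intros
      ext1 <;> first | (simp [ev, evo]; done) | (ext1 <;> simp [ev, evo])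
  apply LinearMap.ext
  intro y
  rw [key f, key g]
  simp only [h]

/-- The base change of a linear map. -/
noncomputable def loc (φ : F →+* ℂ) {a b c : Fˣ} (f : Alb a b c → Alb a b c) :
    R (uw φ a) (uw φ b) (uw φ c) :=
  LinearMap.toContinuousLinearMap (ex fun x => ev φ (f x))

theorem loc_ev (φ : F →+* ℂ) {a b c : Fˣ} {f : Alb a b c → Alb a b c}
    (ha : ∀ x y, f (x + y) = f x + f y) (hs : ∀ (t : F) x, f (t • x) = t • f x) (x : Alb a b c) :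
    loc φ f (ev φ x) = ev φ (f x) :=
  ex_ev φ (fun x => ev φ (f x)) (fun x y => by rw [ha, ev_add])
    (fun t x => by rw [hs, ev_smul]) x

/-- Two operators that agree on the image of the ground field are equal. -/
theorem ext_R (φ : F →+* ℂ) {a b c : Fˣ} {f g : R (uw φ a) (uw φ b) (uw φ c)}
    (h : ∀ x : Alb a b c, f (ev φ x) = g (ev φ x)) : f = g := by
  have := ext_ev φ (f := f.toLinearMap) (g := g.toLinearMap) h
  exact ContinuousLinearMap.coe_injective this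

theorem loc_mul (φ : F →+* ℂ) {a b c : Fˣ} {f g : Alb a b c → Alb a b c}
    (ha : ∀ x y, f (x + y) = f x + f y) (hs : ∀ (t : F) x, f (t • x) = t • f x)
    (ha' : ∀ x y, g (x + y) = g x + g y) (hs' : ∀ (t : F) x, g (t • x) = t • g x) :
    loc φ (fun x => f (g x)) = loc φ f * loc φ g := by
  apply ext_R φ
  intro x
  rw [mul_apply_eq_comp, loc_ev φ ha' hs', loc_ev φ ha hs,
    loc_ev φ (fun x y => by rw [ha', ha]) (fun t x => by rw [hs', hs])]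

theorem loc_one (φ : F →+* ℂ) {a b c : Fˣ} : loc φ (fun x : Alb a b c => x) = 1 := by
  apply ext_R φ
  intro x
  rw [loc_ev φ (fun _ _ => rfl) (fun _ _ => rfl)]
  rfl

end ev

section groups

variable {k E : Type} [Field k] [Field E] [Algebra k E]

/-- The embedding carries `σ` to the conjugation. -/
abbrev InertE (σ : E ≃ₐ[k] E) (φ : E →+* ℂ) : Prop := ∀ x, φ (σ x) = conj (φ x)

/-- The embedding is real. -/
abbrev RealE (φ : E →+* ℂ) : Prop := ∀ x, conj (φ x) = φ x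

/-- The operators over the embedding. -/
abbrev RE (φ : E →+* ℂ) (a b c : kˣ) : Type := R (uw φ (up E a)) (uw φ (up E b)) (uw φ (up E c))

/-- The weights over the embedding. -/
abbrev gE (φ : E →+* ℂ) (g : Fin 3 → Eˣ) : Fin 3 → ℂˣ := fun i => uw φ (g i)

/-- The group at the embedding. -/
def Lg (σ : E ≃ₐ[k] E) (g : Fin 3 → Eˣ) (φ : E →+* ℂ) (a b c : kˣ) : Set (RE φ a b c) :=
  {f | f ∈ GN _ _ _ ∧ (InertE σ φ → f ∈ UH (gE φ g) _ _ _) ∧ (RealE φ → f ∈ CJ _ _ _)}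

/-- The Lie algebra at the embedding. -/
def Ll (σ : E ≃ₐ[k] E) (g : Fin 3 → Eˣ) (φ : E →+* ℂ) (a b c : kˣ) : Set (RE φ a b c) :=
  {f | f ∈ LN _ _ _ ∧ (InertE σ φ → f ∈ LH (gE φ g) _ _ _) ∧ (RealE φ → f ∈ CJ _ _ _)}

/-- The image of an element of the group. -/
noncomputable abbrev lc (φ : E →+* ℂ) {a b c : kˣ} (f : Equiv.Perm (AlbL E a b c)) : RE φ a b c :=
  loc φ (f : AlbL E a b c → AlbL E a b c)

/-- The group of clause (3). -/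
abbrev G3 (ρ σ : E ≃ₐ[k] E) (lam : Eˣ) (g : Fin 3 → Eˣ) (a b c : kˣ) :
    Subgroup (Equiv.Perm (AlbL E a b c)) := GHer σ g a b c ⊓ GPh ρ lam a b c

/-- The closure of the image of a subgroup in the product over the places. -/
def Lcl {ρ σ : E ≃ₐ[k] E} {lam : Eˣ} {g : Fin 3 → Eˣ} {a b c : kˣ} {S : Type}
    (φ : S → E →+* ℂ) (N : Subgroup (G3 ρ σ lam g a b c)) : Set (∀ v : S, RE (φ v) a b c) :=
  closure {x | ∃ n ∈ N, ∀ v, x v = lc (φ v) n.1}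

end groups

end Vale.Agent.P011.H261.Rl
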