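import Mathlib.Analysis.SpecialFunctions.Exponential
import Mathlib.Analysis.Calculus.Deriv.Mul
import Mathlib.Analysis.Calculus.Deriv.Slope
import Mathlib.Analysis.Calculus.Deriv.Comp
import Mathlib.Analysis.SpecialFunctions.Exp

/-!
The vector space of the one-parameter groups in a closed submonoid of a Banach algebra.
-/

open NormedSpace Filter Topology

namespace Vale.Agent.P011.H261.Rl

section powers

variable {A : Type*} [NormedRing A]

/-- The difference of two powers. -/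
theorem norm_pow_sub_pow_le (a b : A) {M : ℝ} (hM : 1 ≤ M) (ha : ‖a‖ ≤ M) (hb : ‖b‖ ≤ M) (n : ℕ) :
    ‖a ^ n - b ^ n‖ ≤ n * M ^ n * ‖a - b‖ := by
  have hM0 : 0 ≤ M := zero_le_one.trans hM
  induction n with
  | zero => simp
  | succ n ih =>
    rcases Nat.eq_zero_or_pos n with rfl | hn
    · simp only [zero_add, pow_one, Nat.cast_one, one_mul]
      calc ‖a - b‖ = 1 * ‖a - b‖ := (one_mul _).symm
        _ ≤ M * ‖a - b‖ := mul_le_mul_of_nonneg_right hM (norm_nonneg _)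
    have h1 : a ^ (n + 1) - b ^ (n + 1) = (a ^ n - b ^ n) * a + b ^ n * (a - b) := by
      rw [pow_succ, pow_succ, sub_mul, mul_sub]; abel
    have hbn : ‖b ^ n‖ ≤ M ^ n :=
      (norm_pow_le' b hn).trans (pow_le_pow_left₀ (norm_nonneg _) hb n)
    have hMn : M ^ n ≤ M ^ (n + 1) := pow_le_pow_right₀ hM (Nat.le_succ n)
    rw [h1]
    calc ‖(a ^ n - b ^ n) * a + b ^ n * (a - b)‖
        ≤ ‖a ^ n - b ^ n‖ * ‖a‖ + ‖b ^ n‖ * ‖a - b‖ :=
          (norm_add_le _ _).trans (add_le_add (norm_mul_le _ _) (norm_mul_le _ _))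
      _ ≤ (n * M ^ n * ‖a - b‖) * M + M ^ (n + 1) * ‖a - b‖ := by
          refine add_le_add (mul_le_mul ih ha (norm_nonneg _) ?_)
            (mul_le_mul_of_nonneg_right (hbn.trans hMn) (norm_nonneg _))
          positivity
      _ = ((n + 1 : ℕ) : ℝ) * M ^ (n + 1) * ‖a - b‖ := by
          push_cast
          ring

end powers

variable {A : Type*} [NormedRing A] [NormedAlgebra ℝ A] [CompleteSpace A]

/-- Powers of the exponential. -/
theorem exp_inv_smul_pow (Z : A) {n : ℕ} (hn : 0 < n) : exp ((n : ℝ)⁻¹ • Z) ^ n = exp Z := by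
  let _ : NormedAlgebra ℚ A := NormedAlgebra.restrictScalars ℚ ℝ A
  have hn' : (n : ℝ) ≠ 0 := by positivity
  rw [← exp_nsmul]
  congr 1
  rw [← Nat.cast_smul_eq_nsmul ℝ, smul_smul, mul_inv_cancel₀ hn', one_smul]

/-- `n (f (1 / n) - f 0)` tends to the derivative. -/
theorem tendsto_nat_of_hasDerivAt {f : ℝ → A} {Z : A} (h : HasDerivAt f Z 0) :
    Tendsto (fun n : ℕ => (n : ℝ) • (f ((n : ℝ)⁻¹) - f 0)) atTop (𝓝 Z) := by
  have h2 := hasDerivAt_iff_tendsto_slope_zero.1 h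
  have h3 : Tendsto (fun n : ℕ => ((n : ℝ)⁻¹)) atTop (𝓝[≠] 0) := by
    rw [tendsto_nhdsWithin_iff]
    refine ⟨tendsto_inv_atTop_nhds_zero_nat, ?_⟩
    filter_upwards [eventually_gt_atTop 0] with n hn
    simp only [Set.mem_compl_iff, Set.mem_singleton_iff, inv_eq_zero, Nat.cast_eq_zero]
    omega
  refine (h2.comp h3).congr fun n => ?_
  simp

/-- `n (exp (Z / n) - 1)` tends to `Z`. -/
theorem tendsto_exp_sub (Z : A) :
    Tendsto (fun n : ℕ => (n : ℝ) • (exp ((n : ℝ)⁻¹ • Z) - 1)) atTop (𝓝 Z) := by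
  have h := hasDerivAt_exp_smul_const (𝕂 := ℝ) Z (0 : ℝ)
  simp only [zero_smul, exp_zero, one_mul] at h
  refine (tendsto_nat_of_hasDerivAt h).congr fun n => ?_
  simp

/-- If `n (g n - 1)` tends to `Z` then `g n ^ n` tends to `exp Z`. -/
theorem tendsto_pow_exp [NormOneClass A] {g : ℕ → A} {Z : A}
    (h : Tendsto (fun n : ℕ => (n : ℝ) • (g n - 1)) atTop (𝓝 Z)) :
    Tendsto (fun n => g n ^ n) atTop (𝓝 (exp Z)) := by
  set b : ℕ → A := fun n => exp ((n : ℝ)⁻¹ • Z) with hb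
  have h1 := tendsto_exp_sub Z
  have h2 : Tendsto (fun n : ℕ => (n : ℝ) • (g n - b n)) atTop (𝓝 0) := by
    have := h.sub h1
    rw [sub_self] at this
    refine this.congr fun n => ?_
    rw [← smul_sub]
    congr 1
    simp only [hb]
    abel
  have hbd : ∀ u : ℕ → A, Tendsto (fun n : ℕ => (n : ℝ) • (u n - 1)) atTop (𝓝 Z) →
      ∀ᶠ n : ℕ in atTop, ‖u n‖ ≤ 1 + (‖Z‖ + 1) / n := by
    intro u hu
    have := hu.norm.eventually (gt_mem_nhds (lt_add_one ‖Z‖))
    filter_upwards [this, eventually_gt_atTop 0] with n hn hn0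
    have hn' : (0 : ℝ) < n := by exact_mod_cast hn0
    rw [norm_smul, Real.norm_of_nonneg hn'.le] at hn
    have h3 : ‖u n - 1‖ ≤ (‖Z‖ + 1) / n := by
      rw [le_div_iff₀ hn', mul_comm]
      exact hn.le
    calc ‖u n‖ = ‖1 + (u n - 1)‖ := by rw [add_sub_cancel]
      _ ≤ ‖(1 : A)‖ + ‖u n - 1‖ := norm_add_le _ _
      _ ≤ 1 + (‖Z‖ + 1) / n := by rw [norm_one]; gcongr
  have h5 : Tendsto (fun n : ℕ => Real.exp (‖Z‖ + 1) * ‖(n : ℝ) • (g n - b n)‖) atTop (𝓝 0) := by
    have := (h2.norm).const_mul (Real.exp (‖Z‖ + 1))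
    simpa using this
  have h6 : Tendsto (fun n : ℕ => g n ^ n - exp Z) atTop (𝓝 0) := by
    refine squeeze_zero_norm' ?_ h5
    filter_upwards [hbd g h, hbd b h1, eventually_gt_atTop 0] with n ha hb' hn0
    have hn' : (0 : ℝ) < n := by exact_mod_cast hn0
    have hC : (0 : ℝ) ≤ (‖Z‖ + 1) / n := by positivity
    have h7 := norm_pow_sub_pow_le (g n) (b n) (by linarith) ha hb' n
    rw [show b n ^ n = exp Z from exp_inv_smul_pow Z hn0] at h7
    refine h7.trans ?_
    rw [norm_smul, Real.norm_of_nonneg hn'.le]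
    have h8 : (1 + (‖Z‖ + 1) / n) ^ n ≤ Real.exp (‖Z‖ + 1) := by
      have h9 : (1 + (‖Z‖ + 1) / n) ≤ Real.exp ((‖Z‖ + 1) / n) := by
        rw [add_comm]; exact Real.add_one_le_exp _
      calc (1 + (‖Z‖ + 1) / n) ^ n ≤ Real.exp ((‖Z‖ + 1) / n) ^ n :=
            pow_le_pow_left₀ (by positivity) h9 n
        _ = Real.exp (‖Z‖ + 1) := by
            rw [← Real.exp_nat_mul]
            congr 1
            field_simp
    calc (n : ℝ) * (1 + (‖Z‖ + 1) / n) ^ n * ‖g n - b n‖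
        = (1 + (‖Z‖ + 1) / n) ^ n * (n * ‖g n - b n‖) := by ring
      _ ≤ Real.exp (‖Z‖ + 1) * (n * ‖g n - b n‖) :=
          mul_le_mul_of_nonneg_right h8 (by positivity)
  have := h6.add_const (exp Z)
  simpa using this

section lie

variable [NormOneClass A] {L : Set A}

/-- The one-parameter groups in the set. -/
def lieOf (L : Set A) : Set A := {X | ∀ t : ℝ, exp (t • X) ∈ L}

variable (h1 : (1 : A) ∈ L) (hm : ∀ x ∈ L, ∀ y ∈ L, x * y ∈ L) (hc : IsClosed L)

include h1 hm in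
theorem pow_mem_set {x : A} (hx : x ∈ L) (n : ℕ) : x ^ n ∈ L := by
  induction n with
  | zero => rw [pow_zero]; exact h1
  | succ n ih => rw [pow_succ]; exact hm _ ih _ hx

include h1 hm hc in
/-- A criterion. -/
theorem exp_mem_of_tendsto {g : ℕ → A} {Z : A} (hg : ∀ n, g n ∈ L)
    (h : Tendsto (fun n : ℕ => (n : ℝ) • (g n - 1)) atTop (𝓝 Z)) : exp Z ∈ L :=
  hc.mem_of_tendsto (tendsto_pow_exp h) (Eventually.of_forall fun n => pow_mem_set h1 hm (hg n) n)

omit [NormOneClass A] in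
theorem smul_mem_lieOf {X : A} (hX : X ∈ lieOf L) (s : ℝ) : s • X ∈ lieOf L := by
  intro t
  rw [smul_smul]
  exact hX _

include h1 hm hc in
theorem add_mem_lieOf {X Y : A} (hX : X ∈ lieOf L) (hY : Y ∈ lieOf L) : X + Y ∈ lieOf L := by
  intro t
  have e1 := hasDerivAt_exp_smul_const (𝕂 := ℝ) (t • X) (0 : ℝ)
  have e2 := hasDerivAt_exp_smul_const (𝕂 := ℝ) (t • Y) (0 : ℝ)
  have e3 := e1.mul e2
  simp only [zero_smul, exp_zero, one_mul, mul_one] at e3
  have e4 := tendsto_nat_of_hasDerivAt e3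
  rw [smul_add]
  refine exp_mem_of_tendsto h1 hm hc (g := fun n => exp ((n : ℝ)⁻¹ • (t • X)) *
    exp ((n : ℝ)⁻¹ • (t • Y))) (fun n => ?_) ?_
  · refine hm _ ?_ _ ?_
    · rw [smul_smul]; exact hX _
    · rw [smul_smul]; exact hY _
  · refine e4.congr fun n => ?_
    simp

include hc in
omit [NormOneClass A] in
theorem isClosed_lieOf : IsClosed (lieOf L) := by
  let _ : NormedAlgebra ℚ A := NormedAlgebra.restrictScalars ℚ ℝ A
  have : lieOf L = ⋂ t : ℝ, (fun X : A => exp (t • X)) ⁻¹' L := by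
    ext X
    simp [lieOf]
  rw [this]
  refine isClosed_iInter fun t => hc.preimage ?_
  exact exp_continuous.comp (continuous_const_smul t)

include hm in
omit [NormOneClass A] in
theorem conj_mem_lieOf {g g' X : A} (hg : g ∈ L) (hg' : g' ∈ L) (h : g * g' = 1) (h' : g' * g = 1)
    (hX : X ∈ lieOf L) : g * X * g' ∈ lieOf L := by
  let _ : NormedAlgebra ℚ A := NormedAlgebra.restrictScalars ℚ ℝ A
  intro t
  have e : exp (t • (g * X * g')) = g * exp (t • X) * g' := by
    have := exp_units_conj (⟨g, g', h, h'⟩ : Aˣ) (t • X)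
    simp only [Units.val_mk, Units.inv_mk] at this
    rw [← this]
    simp
  rw [e]
  exact hm _ (hm _ hg _ (hX t)) _ hg'

include h1 hm hc in
theorem bracket_mem_lieOf {X Y : A} (hX : X ∈ lieOf L) (hY : Y ∈ lieOf L) :
    X * Y - Y * X ∈ lieOf L := by
  let _ : NormedAlgebra ℚ A := NormedAlgebra.restrictScalars ℚ ℝ A
  have e1 := hasDerivAt_exp_smul_const (𝕂 := ℝ) X (0 : ℝ)
  have e2 := hasDerivAt_exp_smul_const (𝕂 := ℝ) (-X) (0 : ℝ)
  have e3 := (e1.mul_const Y).mul e2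
  simp only [zero_smul, exp_zero, one_mul, mul_one, mul_neg, neg_mul] at e3
  have e4 := tendsto_nat_of_hasDerivAt e3
  refine (isClosed_lieOf hc).mem_of_tendsto (b := atTop)
    (f := fun n : ℕ => (n : ℝ) • (exp ((n : ℝ)⁻¹ • X) * Y * exp ((n : ℝ)⁻¹ • (-X)) - Y)) ?_ ?_
  · have : X * Y - Y * X = X * Y + -(Y * X) := by abel
    rw [this]
    refine e4.congr fun n => ?_
    simp
  · refine Eventually.of_forall fun n => ?_
    refine smul_mem_lieOf ?_ _
    rw [sub_eq_add_neg, ← neg_one_smul ℝ Y]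
    refine add_mem_lieOf h1 hm hc ?_ (smul_mem_lieOf hY _)
    refine conj_mem_lieOf hm (hX _) ?_ ?_ ?_ hY
    · rw [smul_neg, ← neg_smul]; exact hX _
    · rw [← exp_add_of_commute, ← smul_add, add_neg_cancel, smul_zero, exp_zero]
      exact ((Commute.refl X).neg_right.smul_right _).smul_left _
    · rw [← exp_add_of_commute, ← smul_add, neg_add_cancel, smul_zero, exp_zero]
      exact ((Commute.refl X).neg_left.smul_right _).smul_left _

/-- The vector space of the one-parameter groups. -/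
def lieSub (L : Set A) (h1 : (1 : A) ∈ L) (hm : ∀ x ∈ L, ∀ y ∈ L, x * y ∈ L) (hc : IsClosed L) :
    Submodule ℝ A where
  carrier := lieOf L
  add_mem' := add_mem_lieOf h1 hm hc
  zero_mem' := fun t => by rw [smul_zero, exp_zero]; exact h1
  smul_mem' := fun s _ hX => smul_mem_lieOf hX s

end lie

end Vale.Agent.P011.H261.Rl
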