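import Vale.Agent.P011.E6.Defs
import Vale.Agent.P011.H261.Rl.Lie
import Mathlib.Analysis.InnerProductSpace.Basic
import Mathlib.Analysis.InnerProductSpace.Defs
import Mathlib.Topology.Algebra.Module.FiniteDimension
import Mathlib.Analysis.Normed.Operator.NormedSpace
import Mathlib.Analysis.Complex.Basic

/-!
The letters of the real part: the space of hermitian matrices over complex octonions as an inner
product space, its operators, and the groups at an infinite place.
-/

open NormedSpace Filter Topology

namespace Vale.Agent.P011.H261.Rl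

open Vale.Agent.P011.MPQ Vale.Agent.P011.D4 Vale.Agent.P011.D4.Oct Vale.Agent.P011.E6
open scoped ComplexConjugate

section space

variable {a b c : ℂˣ}

/-- The standard hermitian form on quaternions. -/
def qh (x y : Qt a b) : ℂ :=
  conj x.re * y.re + conj x.imI * y.imI + conj x.imJ * y.imJ + conj x.imK * y.imK

/-- The standard hermitian form on octonions. -/
def oh (x y : Oct a b c) : ℂ := qh x.fst y.fst + qh x.snd y.snd

/-- The standard hermitian form. -/
def hs (x y : Alb a b c) : ℂ :=
  conj x.d1 * y.d1 + conj x.d2 * y.d2 + conj x.d3 * y.d3 +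
    2 * (oh x.x1 y.x1 + oh x.x2 y.x2 + oh x.x3 y.x3)

theorem qh_self (x : Qt a b) : qh x x =
    ((Complex.normSq x.re + Complex.normSq x.imI + Complex.normSq x.imJ +
      Complex.normSq x.imK : ℝ) : ℂ) := by
  simp only [qh, Complex.normSq_eq_conj_mul_self, Complex.ofReal_add]

theorem qh_self_eq_zero {x : Qt a b} (h : Complex.normSq x.re + Complex.normSq x.imI +
    Complex.normSq x.imJ + Complex.normSq x.imK = 0) : x = 0 := by
  have h1 := Complex.normSq_nonneg x.re
  have h2 := Complex.normSq_nonneg x.imI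
  have h3 := Complex.normSq_nonneg x.imJ
  have h4 := Complex.normSq_nonneg x.imK
  ext
  · exact Complex.normSq_eq_zero.1 (by linarith)
  · exact Complex.normSq_eq_zero.1 (by linarith)
  · exact Complex.normSq_eq_zero.1 (by linarith)
  · exact Complex.normSq_eq_zero.1 (by linarith)

theorem qh_conj (x y : Qt a b) : conj (qh y x) = qh x y := by
  simp only [qh, map_add, map_mul, Complex.conj_conj]
  ring

theorem qh_add_left (x y z : Qt a b) : qh (x + y) z = qh x z + qh y z := by
  simp only [qh, QuaternionAlgebra.re_add, QuaternionAlgebra.imI_add, QuaternionAlgebra.imJ_add,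
    QuaternionAlgebra.imK_add, map_add]
  ring

theorem qh_smul_left (t : ℂ) (x y : Qt a b) : qh (t • x) y = conj t * qh x y := by
  simp only [qh, QuaternionAlgebra.re_smul, QuaternionAlgebra.imI_smul,
    QuaternionAlgebra.imJ_smul, QuaternionAlgebra.imK_smul, smul_eq_mul, map_mul]
  ring

/-- The sum of the squares of the coordinates. -/
noncomputable def qn (x : Qt a b) : ℝ := Complex.normSq x.re + Complex.normSq x.imI +
  Complex.normSq x.imJ + Complex.normSq x.imK

theorem qn_nonneg (x : Qt a b) : 0 ≤ qn x := by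
  have h1 := Complex.normSq_nonneg x.re
  have h2 := Complex.normSq_nonneg x.imI
  have h3 := Complex.normSq_nonneg x.imJ
  have h4 := Complex.normSq_nonneg x.imK
  unfold qn
  linarith

theorem hs_self (x : Alb a b c) : hs x x =
    ((Complex.normSq x.d1 + Complex.normSq x.d2 + Complex.normSq x.d3 +
      2 * ((qn x.x1.fst + qn x.x1.snd) + (qn x.x2.fst + qn x.x2.snd) +
        (qn x.x3.fst + qn x.x3.snd)) : ℝ) : ℂ) := by
  simp only [hs, oh, qh_self, qn, Complex.normSq_eq_conj_mul_self, Complex.ofReal_add,
    Complex.ofReal_mul, Complex.ofReal_ofNat]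

/-- The inner product. -/
@[instance_reducible]
noncomputable def hcore : InnerProductSpace.Core ℂ (Alb a b c) where
  inner := hs
  conj_inner_symm x y := by
    simp only [hs, oh, map_add, map_mul, Complex.conj_conj, qh_conj, map_ofNat]
    ring
  re_inner_nonneg x := by
    rw [hs_self]
    have h1 := Complex.normSq_nonneg x.d1
    have h2 := Complex.normSq_nonneg x.d2
    have h3 := Complex.normSq_nonneg x.d3
    have h4 := qn_nonneg x.x1.fst
    have h5 := qn_nonneg x.x1.snd
    have h6 := qn_nonneg x.x2.fst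
    have h7 := qn_nonneg x.x2.snd
    have h8 := qn_nonneg x.x3.fst
    have h9 := qn_nonneg x.x3.snd
    simp only [RCLike.re_to_complex, Complex.ofReal_re]
    linarith
  add_left x y z := by
    simp only [hs, oh, Alb.d1_add, Alb.d2_add, Alb.d3_add, Alb.x1_add, Alb.x2_add, Alb.x3_add,
      Oct.fst_add, Oct.snd_add, qh_add_left, map_add]
    ring
  smul_left x y t := by
    simp only [hs, oh, Alb.d1_smul, Alb.d2_smul, Alb.d3_smul, Alb.x1_smul, Alb.x2_smul,
      Alb.x3_smul, Oct.fst_smul, Oct.snd_smul, qh_smul_left, map_mul]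
    ring
  definite x hx := by
    change hs x x = 0 at hx
    rw [hs_self] at hx
    have hx' := Complex.ofReal_eq_zero.1 hx
    have h1 := Complex.normSq_nonneg x.d1
    have h2 := Complex.normSq_nonneg x.d2
    have h3 := Complex.normSq_nonneg x.d3
    have h4 := qn_nonneg x.x1.fst
    have h5 := qn_nonneg x.x1.snd
    have h6 := qn_nonneg x.x2.fst
    have h7 := qn_nonneg x.x2.snd
    have h8 := qn_nonneg x.x3.fst
    have h9 := qn_nonneg x.x3.snd
    ext1
    · exact Complex.normSq_eq_zero.1 (by linarith)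
    · exact Complex.normSq_eq_zero.1 (by linarith)
    · exact Complex.normSq_eq_zero.1 (by linarith)
    · ext1
      · exact qh_self_eq_zero (show qn x.x1.fst = 0 by linarith)
      · exact qh_self_eq_zero (show qn x.x1.snd = 0 by linarith)
    · ext1
      · exact qh_self_eq_zero (show qn x.x2.fst = 0 by linarith)
      · exact qh_self_eq_zero (show qn x.x2.snd = 0 by linarith)
    · ext1
      · exact qh_self_eq_zero (show qn x.x3.fst = 0 by linarith)
      · exact qh_self_eq_zero (show qn x.x3.snd = 0 by linarith)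

noncomputable instance : NormedAddCommGroup (Alb a b c) := hcore.toNormedAddCommGroup

noncomputable instance : InnerProductSpace ℂ (Alb a b c) := InnerProductSpace.ofCore _

theorem inner_eq (x y : Alb a b c) : inner ℂ x y = hs x y := rfl

/-- The space as a product. -/
def albProd {F : Type} [Field F] {a b c : Fˣ} : Alb a b c ≃ₗ[F]
    (F × F × F) × (Qt a b × Qt a b) × (Qt a b × Qt a b) × (Qt a b × Qt a b) where
  toFun x := ((x.d1, x.d2, x.d3), (x.x1.fst, x.x1.snd), (x.x2.fst, x.x2.snd), (x.x3.fst, x.x3.snd))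
  invFun y := ⟨y.1.1, y.1.2.1, y.1.2.2, ⟨y.2.1.1, y.2.1.2⟩, ⟨y.2.2.1.1, y.2.2.1.2⟩,
    ⟨y.2.2.2.1, y.2.2.2.2⟩⟩
  map_add' _ _ := rfl
  map_smul' _ _ := rfl
  left_inv _ := rfl
  right_inv _ := rfl

instance finAlb {F : Type} [Field F] {a b c : Fˣ} : Module.Finite F (Alb a b c) :=
  Module.Finite.equiv albProd.symm

instance : CompleteSpace (Alb a b c) := FiniteDimensional.complete ℂ _

instance : Nontrivial (Alb a b c) := ⟨0, Alb.e1, fun h => by
  have := congrArg Alb.d1 h
  simp [Alb.e1] at this⟩

end space

/-- The operators. -/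
abbrev R (a b c : ℂˣ) : Type := Alb a b c →L[ℂ] Alb a b c

/-- The conjugation of the coordinates of a quaternion. -/
def cjq {a b : ℂˣ} (x : Qt a b) : Qt a b := ⟨conj x.re, conj x.imI, conj x.imJ, conj x.imK⟩

/-- The conjugation of the coordinates of an octonion. -/
def cjo {a b c : ℂˣ} (x : Oct a b c) : Oct a b c := ⟨cjq x.fst, cjq x.snd⟩

/-- The conjugation of the coordinates. -/
def cj {a b c : ℂˣ} (x : Alb a b c) : Alb a b c :=
  ⟨conj x.d1, conj x.d2, conj x.d3, cjo x.x1, cjo x.x2, cjo x.x3⟩

/-- The hermitian form with weights. -/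
noncomputable def hC (g : Fin 3 → ℂˣ) {a b c : ℂˣ} (x y : Alb a b c) : ℂ := Alb.tf (Alb.wt g x) (cj y)

/-- The group of the maps that preserve the cubic norm. -/
def GN (a b c : ℂˣ) : Set (R a b c) := {f | ∀ x, Alb.cub (f x) = Alb.cub x}

/-- Its Lie algebra. -/
def LN (a b c : ℂˣ) : Set (R a b c) := {X | ∀ x, Alb.tf (X x) (Alb.adj x) = 0}

/-- The maps that commute with the conjugation: the group at a real place that splits in `K`. -/
def CJ (a b c : ℂˣ) : Set (R a b c) := {f | ∀ x, f (cj x) = cj (f x)}

/-- The maps that preserve the hermitian form. -/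
def UH (g : Fin 3 → ℂˣ) (a b c : ℂˣ) : Set (R a b c) := {f | ∀ x y, hC g (f x) (f y) = hC g x y}

/-- The maps that are skew for the hermitian form. -/
def LH (g : Fin 3 → ℂˣ) (a b c : ℂˣ) : Set (R a b c) :=
  {X | ∀ x y, hC g (X x) y + hC g x (X y) = 0}

/-- Every closed monoid that contains the one-parameter groups of `l` contains `G`. -/
def Cn {A : Type*} [NormedRing A] [NormedAlgebra ℝ A] (l G : Set A) : Prop :=
  ∀ L : Set A, IsClosed L → (1 : A) ∈ L → (∀ x ∈ L, ∀ y ∈ L, x * y ∈ L) →
    (∀ X ∈ l, X ∈ lieOf L) → ∀ f ∈ G, f ∈ L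

end Vale.Agent.P011.H261.Rl
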