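import Vale.Agent.P011.H261.Rl.Defs

/-!
The derivations attached to the elementary matrices.
-/

namespace Vale.Agent.P011.H261.Rl

open Vale.Agent.P011.MPQ Vale.Agent.P011.D4 Vale.Agent.P011.D4.Oct Vale.Agent.P011.E6

section elem

variable {F : Type} [Field F] {a b c : Fˣ}

/-- The derivation attached to the elementary matrix `q E₂₃`. -/
def P1 (q : Oct a b c) : Alb a b c →ₗ[F] Alb a b c where
  toFun x := ⟨0, bil q x.x1, 0, x.d3 • q, 0, star (q * x.x2)⟩
  map_add' x y := by
    ext1 <;> simp [mul_add, add_smul, bil_add_right]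
  map_smul' t x := by
    ext1 <;> simp [mul_smul, bil_smul_right, star_smul_oct, mul_smul_oct]

/-- The derivation attached to the elementary matrix `q E₃₁`. -/
def P2 (q : Oct a b c) : Alb a b c →ₗ[F] Alb a b c where
  toFun x := ⟨0, 0, bil q x.x2, star (q * x.x3), x.d1 • q, 0⟩
  map_add' x y := by
    ext1 <;> simp [mul_add, add_smul, bil_add_right]
  map_smul' t x := by
    ext1 <;> simp [mul_smul, bil_smul_right, star_smul_oct, mul_smul_oct]

/-- The derivation attached to the elementary matrix `q E₁₂`. -/
def P3 (q : Oct a b c) : Alb a b c →ₗ[F] Alb a b c where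
  toFun x := ⟨bil q x.x3, 0, 0, 0, star (q * x.x1), x.d2 • q⟩
  map_add' x y := by
    ext1 <;> simp [mul_add, add_smul, bil_add_right]
  map_smul' t x := by
    ext1 <;> simp [mul_smul, bil_smul_right, star_smul_oct, mul_smul_oct]

/-- The derivation attached to the elementary matrix `q E₃₂`. -/
def M1 (q : Oct a b c) : Alb a b c →ₗ[F] Alb a b c where
  toFun x := ⟨0, 0, bil q (star x.x1), x.d2 • star q, q * star x.x3, 0⟩
  map_add' x y := by
    ext1 <;> simp [mul_add, add_smul, bil_add_right]
  map_smul' t x := by
    ext1 <;> simp [mul_smul, bil_smul_right, star_smul_oct, mul_smul_oct]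

/-- The derivation attached to the elementary matrix `q E₁₃`. -/
def M2 (q : Oct a b c) : Alb a b c →ₗ[F] Alb a b c where
  toFun x := ⟨bil q (star x.x2), 0, 0, 0, x.d3 • star q, q * star x.x1⟩
  map_add' x y := by
    ext1 <;> simp [mul_add, add_smul, bil_add_right]
  map_smul' t x := by
    ext1 <;> simp [mul_smul, bil_smul_right, star_smul_oct, mul_smul_oct]

/-- The derivation attached to the elementary matrix `q E₂₁`. -/
def M3 (q : Oct a b c) : Alb a b c →ₗ[F] Alb a b c where
  toFun x := ⟨0, bil q (star x.x3), 0, q * star x.x2, 0, x.d1 • star q⟩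
  map_add' x y := by
    ext1 <;> simp [mul_add, add_smul, bil_add_right]
  map_smul' t x := by
    ext1 <;> simp [mul_smul, bil_smul_right, star_smul_oct, mul_smul_oct]

end elem

end Vale.Agent.P011.H261.Rl
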