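import Vale.Agent.P011.H261.Rl.Fin1
import Vale.Agent.P011.H500.Rl.Front

/-!
The last clause on groups of type `E₆`: no proper subgroup of finite index.
-/

namespace Vale.Agent.P011.H261.Rl

/-- The last clause: the outer groups of type `E₆` with nontrivial Tits class have no proper
subgroup of finite index. -/
theorem old3n : Vale.Agent.P011.H742.Old3N :=
  old3n_of_front fun hS hC hg => Vale.Agent.P011.H500.Rl.front hS hC hg

end Vale.Agent.P011.H261.Rl
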