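import Vale.Agent.P011.H261.Rl.Plug
import Vale.Agent.P011.H742.E3N
import Vale.Agent.P011.H450.R.Real
import Vale.Agent.P011.E6X.H714.Main
import Vale.Agent.P011.E6W.H7.Fin2
import Vale.Agent.P011.E6W.H7.TiAll
import Vale.Agent.P011.E6W.H183.SixW
import Vale.Agent.P011.E6W.H196.KTh

/-!
The last clause from the three parts of the real theory.
-/

open NumberField

namespace Vale.Agent.P011.H261.Rl

open Vale.Agent.P011.D4 Vale.Agent.P011.E6 Vale.Agent.P011.E6H

/-- The last clause from the Lie algebra of the closure, the nearness at all the embeddings and the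
connectedness at the embeddings which are not real. -/
theorem old3n_of
    (hfront : ∀ {k E : Type} [Field k] [NumberField k] [Field E] [NumberField E] [Algebra k E]
      {ρ σ : E ≃ₐ[k] E} {kap a b c : kˣ} {lam : Eˣ} {g : Fin 3 → Eˣ}, IsSextic ρ σ kap →
      Oct.Division a b c → IsForm ρ σ lam g → Front ρ σ lam g a b c)
    (hemb : ∀ {k E : Type} [Field k] [NumberField k] [Field E] [NumberField E] [Algebra k E]
      {ρ σ : E ≃ₐ[k] E} {kap a b c : kˣ} {lam : Eˣ} {g : Fin 3 → Eˣ}, IsSextic ρ σ kap →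
      Oct.Division a b c → IsForm ρ σ lam g → EmbNear ρ σ lam g a b c)
    (hcn : ∀ {k E : Type} [Field k] [NumberField k] [Field E] [NumberField E] [Algebra k E]
      {ρ σ : E ≃ₐ[k] E} {kap a b c : kˣ} {lam : Eˣ} {g : Fin 3 → Eˣ}, IsSextic ρ σ kap →
      Oct.Division a b c → IsForm ρ σ lam g → ∀ φ : E →+* ℂ, ¬ RealE φ →
      Conn ρ σ lam g a b c φ) :
    Vale.Agent.P011.H742.Old3N := by
  intro k E _ _ _ _ _ ρ σ kap hS a b c hC lam g hg
  refine clause3_of hfront hemb hcn ?_ ?_ ?_ ρ σ hS hC lam g hg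
  · intro k E _ _ _ _ _ ρ σ kap a b c lam g hS hC hg hE φ hφ
    exact Vale.Agent.P011.H450.R.conn_real hS hg hE hφ
  · intro k E _ _ _ _ _ ρ σ kap a b c lam g hS hC hg
    exact Vale.Agent.P011.E6W.H7.main
      (Vale.Agent.P011.E6W.H196.ktop _ _ fun L _ _ _ => Vale.Agent.P011.E6W.H7.tiAll _ L)
      (fun W hT => Vale.Agent.P011.E6W.H183.sixAt W hT) hS hC hg
  · intro k E _ _ _ _ _ ρ σ a b c lam g hS hC hg
    exact Vale.Agent.P011.E6X.e6x_open hS hC hg

end Vale.Agent.P011.H261.Rl
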