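import Vale.Agent.P011.H261.Rl.Fin0
import Vale.Agent.P011.H132.Rl.Tra
import Vale.Agent.P011.H505.Rl.ThmF
import Vale.Agent.P011.H138.Rl.EmbTop

/-!
The last clause from the Lie algebra of the closure.
-/

open NumberField

namespace Vale.Agent.P011.H261.Rl

open Vale.Agent.P011.D4 Vale.Agent.P011.E6 Vale.Agent.P011.E6H

/-- The last clause from the Lie algebra of the closure. -/
theorem old3n_of_front
    (hfront : ∀ {k E : Type} [Field k] [NumberField k] [Field E] [NumberField E] [Algebra k E]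
      {ρ σ : E ≃ₐ[k] E} {kap a b c : kˣ} {lam : Eˣ} {g : Fin 3 → Eˣ}, IsSextic ρ σ kap →
      Oct.Division a b c → IsForm ρ σ lam g → Front ρ σ lam g a b c) :
    Vale.Agent.P011.H742.Old3N := by
  refine old3n_of hfront ?_ ?_
  · intro k E _ _ _ _ _ ρ σ kap a b c lam g hS _ _
    exact Vale.Agent.P011.H138.Rl.embNear hS
  · intro k E _ _ _ _ _ ρ σ kap a b c lam g hS hC hg φ hφ
    exact Vale.Agent.P011.H132.Rl.hcn_of_thF
      (fun _ _ h1 h2 h3 => Vale.Agent.P011.H505.Rl.thmF h1 h2 h3) hS hC hg φ hφ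

end Vale.Agent.P011.H261.Rl
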