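import Vale.Agent.P011.H261.Rl.Top
import Vale.Agent.P011.H553.Rl.Model

/-!
The last clause from its parts.
-/

open NormedSpace Filter Topology NumberField

namespace Vale.Agent.P011.H261.Rl

open Vale.Agent.P011.MPQ Vale.Agent.P011.D4 Vale.Agent.P011.D4.Oct Vale.Agent.P011.E6
open Vale.Agent.P011.E6H

/-- The last clause: no proper subgroup of finite index. -/
theorem clause3_of
    (hfront : ∀ {k E : Type} [Field k] [NumberField k] [Field E] [NumberField E] [Algebra k E]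
      {ρ σ : E ≃ₐ[k] E} {kap a b c : kˣ} {lam : Eˣ} {g : Fin 3 → Eˣ}, IsSextic ρ σ kap →
      Oct.Division a b c → IsForm ρ σ lam g → Front ρ σ lam g a b c)
    (hemb : ∀ {k E : Type} [Field k] [NumberField k] [Field E] [NumberField E] [Algebra k E]
      {ρ σ : E ≃ₐ[k] E} {kap a b c : kˣ} {lam : Eˣ} {g : Fin 3 → Eˣ}, IsSextic ρ σ kap →
      Oct.Division a b c → IsForm ρ σ lam g → EmbNear ρ σ lam g a b c)
    (hcn : ∀ {k E : Type} [Field k] [NumberField k] [Field E] [NumberField E] [Algebra k E]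
      {ρ σ : E ≃ₐ[k] E} {kap a b c : kˣ} {lam : Eˣ} {g : Fin 3 → Eˣ}, IsSextic ρ σ kap →
      Oct.Division a b c → IsForm ρ σ lam g → ∀ φ : E →+* ℂ, ¬ RealE φ → Conn ρ σ lam g a b c φ)
    (hcr : ∀ {k E : Type} [Field k] [NumberField k] [Field E] [NumberField E] [Algebra k E]
      {ρ σ : E ≃ₐ[k] E} {kap a b c : kˣ} {lam : Eˣ} {g : Fin 3 → Eˣ}, IsSextic ρ σ kap →
      Oct.Division a b c → IsForm ρ σ lam g → Oct.Division (up E a) (up E b) (up E c) →
      ∀ φ : E →+* ℂ, RealE φ → Conn ρ σ lam g a b c φ)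
    (hdiv : ∀ {k E : Type} [Field k] [NumberField k] [Field E] [NumberField E] [Algebra k E]
      {ρ σ : E ≃ₐ[k] E} {kap a b c : kˣ} {lam : Eˣ} {g : Fin 3 → Eˣ}, IsSextic ρ σ kap →
      Oct.Division a b c → IsForm ρ σ lam g → OpenAt (fun _ => True) (G3 ρ σ lam g a b c))
    (hbad : ∀ {k E : Type} [Field k] [NumberField k] [Field E] [NumberField E] [Algebra k E]
      {ρ σ : E ≃ₐ[k] E} {a b c : kˣ} {lam : Eˣ} {g : Fin 3 → Eˣ}, IsSextic ρ σ a →
      Oct.Division a b c → IsForm ρ σ lam g → OpenAt (Bad σ b c g) (G3 ρ σ lam g a b c))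
    {k E : Type} [Field k] [NumberField k] [Field E] [NumberField E] [Algebra k E]
    (ρ σ : E ≃ₐ[k] E) {kap : kˣ} (hS : IsSextic ρ σ kap) {a b c : kˣ} (hC : Oct.Division a b c)
    (lam : Eˣ) (g : Fin 3 → Eˣ) (hg : IsForm ρ σ lam g) :
    NoIndex (GHer σ g a b c ⊓ GPh ρ lam a b c) := by
  by_cases hE : Oct.Division (up E a) (up E b) (up E c)
  · refine noIndex_all (hdiv hS hC hg) (hfront hS hC hg) (hemb hS hC hg) fun φ => ?_
    by_cases hφ : RealE φ
    · exact hcr hS hC hg hE φ hφ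
    · exact hcn hS hC hg φ hφ
  · obtain ⟨b', c', h, h'⟩ := Vale.Agent.P011.H553.Rl.exists_kap hS hC hE
    refine h' lam g (noIndex_on (hbad hS h hg) (hfront hS h hg) (hemb hS h hg) fun φ hφ => ?_)
    refine hcn hS h hg φ fun hr => ?_
    -- at a bad embedding the conjugation is not trivial
    have h1 : ∀ x, φ (σ x) = φ x := fun x => by rw [hφ.1 x, hr x]
    obtain ⟨x, hx, -, hs⟩ := hS.sq
    have h2 := h1 x
    rw [hs, map_neg, neg_eq_self, map_eq_zero] at h2
    rw [h2] at hx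
    have h3 : algebraMap k E (kap : k) = 0 := by rw [← hx]; ring
    exact kap.ne_zero ((map_eq_zero _).1 h3)

end Vale.Agent.P011.H261.Rl
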